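import Vale.Agent.P355.H182F.Dat
import Vale.Agent.P355.H182F.Mv

/-! Products, columns 0 to 7. -/

namespace Vale.Agent.P355.H182F

open Finset Matrix Vale.Agent.P355 H147 H998.E

theorem c0 : Cov cls mv 0 1 := Cov.mk' 0 1 (by decide +kernel) rfl

theorem c1 : Cov cls mv 1 2 := Cov.mk' 1 1 (by decide +kernel) rfl

theorem c2 : Cov cls mv 2 3 := Cov.mk' 2 1 (by decide +kernel) rfl

theorem c3 : Cov cls mv 3 4 := Cov.mk' 3 1 (by decide +kernel) rfl

theorem c4 : Cov cls mv 4 5 := Cov.mk' 4 1 (by decide +kernel) rfl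

theorem c5 : Cov cls mv 5 6 := Cov.mk' 5 1 (by decide +kernel) rfl

theorem c6 : Cov cls mv 6 7 := Cov.mk' 6 1 (by decide +kernel) rfl

theorem c7 : Cov cls mv 7 8 := Cov.mk' 7 1 (by decide +kernel) rfl

theorem cov0 : Cov cls mv 0 8 := (((((((c0.trans c1).trans c2).trans c3).trans c4).trans c5).trans c6).trans c7)

end Vale.Agent.P355.H182F
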