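import Vale.Agent.P355.H182F.Dat
import Vale.Agent.P355.H182F.Mv

/-! Products, columns 8 to 14. -/

namespace Vale.Agent.P355.H182F

open Finset Matrix Vale.Agent.P355 H147 H998.E

theorem c8 : Cov cls mv 8 9 := Cov.mk' 8 1 (by decide +kernel) rfl

theorem c9 : Cov cls mv 9 10 := Cov.mk' 9 1 (by decide +kernel) rfl

theorem c10 : Cov cls mv 10 11 := Cov.mk' 10 1 (by decide +kernel) rfl

theorem c11 : Cov cls mv 11 12 := Cov.mk' 11 1 (by decide +kernel) rfl

theorem c12 : Cov cls mv 12 13 := Cov.mk' 12 1 (by decide +kernel) rfl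

theorem c13 : Cov cls mv 13 14 := Cov.mk' 13 1 (by decide +kernel) rfl

theorem c14 : Cov cls mv 14 15 := Cov.mk' 14 1 (by decide +kernel) rfl

theorem cov1 : Cov cls mv 8 15 := ((((((c8.trans c9).trans c10).trans c11).trans c12).trans c13).trans c14)

end Vale.Agent.P355.H182F
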