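import Vale.Agent.P355.H182F.Dat
import Vale.Agent.P355.H182F.Mv

/-! Products, columns 83 to 91. -/

namespace Vale.Agent.P355.H182F

open Finset Matrix Vale.Agent.P355 H147 H998.E

theorem c83 : Cov cls mv 83 84 := Cov.mk' 83 1 (by decide +kernel) rfl

theorem c84 : Cov cls mv 84 85 := Cov.mk' 84 1 (by decide +kernel) rfl

theorem c85 : Cov cls mv 85 86 := Cov.mk' 85 1 (by decide +kernel) rfl

theorem c86 : Cov cls mv 86 87 := Cov.mk' 86 1 (by decide +kernel) rfl

theorem c87 : Cov cls mv 87 88 := Cov.mk' 87 1 (by decide +kernel) rfl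

theorem c88 : Cov cls mv 88 89 := Cov.mk' 88 1 (by decide +kernel) rfl

theorem c89 : Cov cls mv 89 90 := Cov.mk' 89 1 (by decide +kernel) rfl

theorem c90 : Cov cls mv 90 91 := Cov.mk' 90 1 (by decide +kernel) rfl

theorem c91 : Cov cls mv 91 92 := Cov.mk' 91 1 (by decide +kernel) rfl

theorem cov10 : Cov cls mv 83 92 := ((((((((c83.trans c84).trans c85).trans c86).trans c87).trans c88).trans c89).trans c90).trans c91)

end Vale.Agent.P355.H182F
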