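import Vale.Agent.P355.H182F.Dat
import Vale.Agent.P355.H182F.Mv

/-! Products, columns 92 to 101. -/

namespace Vale.Agent.P355.H182F

open Finset Matrix Vale.Agent.P355 H147 H998.E

theorem c92 : Cov cls mv 92 93 := Cov.mk' 92 1 (by decide +kernel) rfl

theorem c93 : Cov cls mv 93 94 := Cov.mk' 93 1 (by decide +kernel) rfl

theorem c94 : Cov cls mv 94 95 := Cov.mk' 94 1 (by decide +kernel) rfl

theorem c95 : Cov cls mv 95 96 := Cov.mk' 95 1 (by decide +kernel) rfl

theorem c96 : Cov cls mv 96 97 := Cov.mk' 96 1 (by decide +kernel) rfl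

theorem c97 : Cov cls mv 97 98 := Cov.mk' 97 1 (by decide +kernel) rfl

theorem c98 : Cov cls mv 98 99 := Cov.mk' 98 1 (by decide +kernel) rfl

theorem c99 : Cov cls mv 99 100 := Cov.mk' 99 1 (by decide +kernel) rfl

theorem c100 : Cov cls mv 100 101 := Cov.mk' 100 1 (by decide +kernel) rfl

theorem c101 : Cov cls mv 101 102 := Cov.mk' 101 1 (by decide +kernel) rfl

theorem cov11 : Cov cls mv 92 102 := (((((((((c92.trans c93).trans c94).trans c95).trans c96).trans c97).trans c98).trans c99).trans c100).trans c101)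

end Vale.Agent.P355.H182F
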