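import Vale.Agent.P355.H182F.Dat
import Vale.Agent.P355.H182F.Mv

/-! Products, columns 102 to 112. -/

namespace Vale.Agent.P355.H182F

open Finset Matrix Vale.Agent.P355 H147 H998.E

theorem c102 : Cov cls mv 102 103 := Cov.mk' 102 1 (by decide +kernel) rfl

theorem c103 : Cov cls mv 103 104 := Cov.mk' 103 1 (by decide +kernel) rfl

theorem c104 : Cov cls mv 104 105 := Cov.mk' 104 1 (by decide +kernel) rfl

theorem c105 : Cov cls mv 105 106 := Cov.mk' 105 1 (by decide +kernel) rfl

theorem c106 : Cov cls mv 106 107 := Cov.mk' 106 1 (by decide +kernel) rfl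

theorem c107 : Cov cls mv 107 108 := Cov.mk' 107 1 (by decide +kernel) rfl

theorem c108 : Cov cls mv 108 109 := Cov.mk' 108 1 (by decide +kernel) rfl

theorem c109 : Cov cls mv 109 110 := Cov.mk' 109 1 (by decide +kernel) rfl

theorem c110 : Cov cls mv 110 111 := Cov.mk' 110 1 (by decide +kernel) rfl

theorem c111 : Cov cls mv 111 112 := Cov.mk' 111 1 (by decide +kernel) rfl

theorem c112 : Cov cls mv 112 113 := Cov.mk' 112 1 (by decide +kernel) rfl

theorem cov12 : Cov cls mv 102 113 := ((((((((((c102.trans c103).trans c104).trans c105).trans c106).trans c107).trans c108).trans c109).trans c110).trans c111).trans c112)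

end Vale.Agent.P355.H182F
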