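import Vale.Agent.P355.H182F.Dat
import Vale.Agent.P355.H182F.Mv

/-! Products, columns 113 to 123. -/

namespace Vale.Agent.P355.H182F

open Finset Matrix Vale.Agent.P355 H147 H998.E

theorem c113 : Cov cls mv 113 114 := Cov.mk' 113 1 (by decide +kernel) rfl

theorem c114 : Cov cls mv 114 115 := Cov.mk' 114 1 (by decide +kernel) rfl

theorem c115 : Cov cls mv 115 116 := Cov.mk' 115 1 (by decide +kernel) rfl

theorem c116 : Cov cls mv 116 117 := Cov.mk' 116 1 (by decide +kernel) rfl

theorem c117 : Cov cls mv 117 118 := Cov.mk' 117 1 (by decide +kernel) rfl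

theorem c118 : Cov cls mv 118 119 := Cov.mk' 118 1 (by decide +kernel) rfl

theorem c119 : Cov cls mv 119 120 := Cov.mk' 119 1 (by decide +kernel) rfl

theorem c120 : Cov cls mv 120 121 := Cov.mk' 120 1 (by decide +kernel) rfl

theorem c121 : Cov cls mv 121 122 := Cov.mk' 121 1 (by decide +kernel) rfl

theorem c122 : Cov cls mv 122 123 := Cov.mk' 122 1 (by decide +kernel) rfl

theorem c123 : Cov cls mv 123 124 := Cov.mk' 123 1 (by decide +kernel) rfl

theorem cov13 : Cov cls mv 113 124 := ((((((((((c113.trans c114).trans c115).trans c116).trans c117).trans c118).trans c119).trans c120).trans c121).trans c122).trans c123)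

end Vale.Agent.P355.H182F
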