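import Vale.Agent.P355.H182F.Dat
import Vale.Agent.P355.H182F.Mv

/-! Products, columns 124 to 134. -/

namespace Vale.Agent.P355.H182F

open Finset Matrix Vale.Agent.P355 H147 H998.E

theorem c124 : Cov cls mv 124 125 := Cov.mk' 124 1 (by decide +kernel) rfl

theorem c125 : Cov cls mv 125 126 := Cov.mk' 125 1 (by decide +kernel) rfl

theorem c126 : Cov cls mv 126 127 := Cov.mk' 126 1 (by decide +kernel) rfl

theorem c127 : Cov cls mv 127 128 := Cov.mk' 127 1 (by decide +kernel) rfl

theorem c128 : Cov cls mv 128 129 := Cov.mk' 128 1 (by decide +kernel) rfl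

theorem c129 : Cov cls mv 129 130 := Cov.mk' 129 1 (by decide +kernel) rfl

theorem c130 : Cov cls mv 130 131 := Cov.mk' 130 1 (by decide +kernel) rfl

theorem c131 : Cov cls mv 131 132 := Cov.mk' 131 1 (by decide +kernel) rfl

theorem c132 : Cov cls mv 132 133 := Cov.mk' 132 1 (by decide +kernel) rfl

theorem c133 : Cov cls mv 133 134 := Cov.mk' 133 1 (by decide +kernel) rfl

theorem c134 : Cov cls mv 134 135 := Cov.mk' 134 1 (by decide +kernel) rfl

theorem cov14 : Cov cls mv 124 135 := ((((((((((c124.trans c125).trans c126).trans c127).trans c128).trans c129).trans c130).trans c131).trans c132).trans c133).trans c134)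

end Vale.Agent.P355.H182F
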