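import Vale.Agent.P355.H182F.Dat
import Vale.Agent.P355.H182F.Mv

/-! Products, columns 135 to 146. -/

namespace Vale.Agent.P355.H182F

open Finset Matrix Vale.Agent.P355 H147 H998.E

theorem c135 : Cov cls mv 135 136 := Cov.mk' 135 1 (by decide +kernel) rfl

theorem c136 : Cov cls mv 136 137 := Cov.mk' 136 1 (by decide +kernel) rfl

theorem c137 : Cov cls mv 137 138 := Cov.mk' 137 1 (by decide +kernel) rfl

theorem c138 : Cov cls mv 138 139 := Cov.mk' 138 1 (by decide +kernel) rfl

theorem c139 : Cov cls mv 139 140 := Cov.mk' 139 1 (by decide +kernel) rfl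

theorem c140 : Cov cls mv 140 141 := Cov.mk' 140 1 (by decide +kernel) rfl

theorem c141 : Cov cls mv 141 142 := Cov.mk' 141 1 (by decide +kernel) rfl

theorem c142 : Cov cls mv 142 143 := Cov.mk' 142 1 (by decide +kernel) rfl

theorem c143 : Cov cls mv 143 144 := Cov.mk' 143 1 (by decide +kernel) rfl

theorem c144 : Cov cls mv 144 145 := Cov.mk' 144 1 (by decide +kernel) rfl

theorem c145 : Cov cls mv 145 146 := Cov.mk' 145 1 (by decide +kernel) rfl

theorem c146 : Cov cls mv 146 147 := Cov.mk' 146 1 (by decide +kernel) rfl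

theorem cov15 : Cov cls mv 135 147 := (((((((((((c135.trans c136).trans c137).trans c138).trans c139).trans c140).trans c141).trans c142).trans c143).trans c144).trans c145).trans c146)

end Vale.Agent.P355.H182F
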