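import Vale.Agent.P355.H182F.Dat
import Vale.Agent.P355.H182F.Mv

/-! Products, columns 147 to 159. -/

namespace Vale.Agent.P355.H182F

open Finset Matrix Vale.Agent.P355 H147 H998.E

theorem c147 : Cov cls mv 147 148 := Cov.mk' 147 1 (by decide +kernel) rfl

theorem c148 : Cov cls mv 148 149 := Cov.mk' 148 1 (by decide +kernel) rfl

theorem c149 : Cov cls mv 149 150 := Cov.mk' 149 1 (by decide +kernel) rfl

theorem c150 : Cov cls mv 150 151 := Cov.mk' 150 1 (by decide +kernel) rfl

theorem c151 : Cov cls mv 151 152 := Cov.mk' 151 1 (by decide +kernel) rfl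

theorem c152 : Cov cls mv 152 153 := Cov.mk' 152 1 (by decide +kernel) rfl

theorem c153 : Cov cls mv 153 154 := Cov.mk' 153 1 (by decide +kernel) rfl

theorem c154 : Cov cls mv 154 155 := Cov.mk' 154 1 (by decide +kernel) rfl

theorem c155 : Cov cls mv 155 156 := Cov.mk' 155 1 (by decide +kernel) rfl

theorem c156 : Cov cls mv 156 157 := Cov.mk' 156 1 (by decide +kernel) rfl

theorem c157 : Cov cls mv 157 158 := Cov.mk' 157 1 (by decide +kernel) rfl

theorem c158 : Cov cls mv 158 159 := Cov.mk' 158 1 (by decide +kernel) rfl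

theorem c159 : Cov cls mv 159 160 := Cov.mk' 159 1 (by decide +kernel) rfl

theorem cov16 : Cov cls mv 147 160 := ((((((((((((c147.trans c148).trans c149).trans c150).trans c151).trans c152).trans c153).trans c154).trans c155).trans c156).trans c157).trans c158).trans c159)

end Vale.Agent.P355.H182F
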