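import Vale.Agent.P355.H182F.Dat
import Vale.Agent.P355.H182F.Mv

/-! Products, columns 160 to 173. -/

namespace Vale.Agent.P355.H182F

open Finset Matrix Vale.Agent.P355 H147 H998.E

theorem c160 : Cov cls mv 160 161 := Cov.mk' 160 1 (by decide +kernel) rfl

theorem c161 : Cov cls mv 161 162 := Cov.mk' 161 1 (by decide +kernel) rfl

theorem c162 : Cov cls mv 162 163 := Cov.mk' 162 1 (by decide +kernel) rfl

theorem c163 : Cov cls mv 163 164 := Cov.mk' 163 1 (by decide +kernel) rfl

theorem c164 : Cov cls mv 164 165 := Cov.mk' 164 1 (by decide +kernel) rfl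

theorem c165 : Cov cls mv 165 166 := Cov.mk' 165 1 (by decide +kernel) rfl

theorem c166 : Cov cls mv 166 167 := Cov.mk' 166 1 (by decide +kernel) rfl

theorem c167 : Cov cls mv 167 168 := Cov.mk' 167 1 (by decide +kernel) rfl

theorem c168 : Cov cls mv 168 169 := Cov.mk' 168 1 (by decide +kernel) rfl

theorem c169 : Cov cls mv 169 170 := Cov.mk' 169 1 (by decide +kernel) rfl

theorem c170 : Cov cls mv 170 171 := Cov.mk' 170 1 (by decide +kernel) rfl

theorem c171 : Cov cls mv 171 172 := Cov.mk' 171 1 (by decide +kernel) rfl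

theorem c172 : Cov cls mv 172 173 := Cov.mk' 172 1 (by decide +kernel) rfl

theorem c173 : Cov cls mv 173 174 := Cov.mk' 173 1 (by decide +kernel) rfl

theorem cov17 : Cov cls mv 160 174 := (((((((((((((c160.trans c161).trans c162).trans c163).trans c164).trans c165).trans c166).trans c167).trans c168).trans c169).trans c170).trans c171).trans c172).trans c173)

end Vale.Agent.P355.H182F
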