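import Vale.Agent.P355.H182F.Dat
import Vale.Agent.P355.H182F.Mv

/-! Products, columns 174 to 188. -/

namespace Vale.Agent.P355.H182F

open Finset Matrix Vale.Agent.P355 H147 H998.E

theorem c174 : Cov cls mv 174 175 := Cov.mk' 174 1 (by decide +kernel) rfl

theorem c175 : Cov cls mv 175 176 := Cov.mk' 175 1 (by decide +kernel) rfl

theorem c176 : Cov cls mv 176 177 := Cov.mk' 176 1 (by decide +kernel) rfl

theorem c177 : Cov cls mv 177 178 := Cov.mk' 177 1 (by decide +kernel) rfl

theorem c178 : Cov cls mv 178 179 := Cov.mk' 178 1 (by decide +kernel) rfl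

theorem c179 : Cov cls mv 179 180 := Cov.mk' 179 1 (by decide +kernel) rfl

theorem c180 : Cov cls mv 180 181 := Cov.mk' 180 1 (by decide +kernel) rfl

theorem c181 : Cov cls mv 181 182 := Cov.mk' 181 1 (by decide +kernel) rfl

theorem c182 : Cov cls mv 182 183 := Cov.mk' 182 1 (by decide +kernel) rfl

theorem c183 : Cov cls mv 183 184 := Cov.mk' 183 1 (by decide +kernel) rfl

theorem c184 : Cov cls mv 184 185 := Cov.mk' 184 1 (by decide +kernel) rfl

theorem c185 : Cov cls mv 185 186 := Cov.mk' 185 1 (by decide +kernel) rfl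

theorem c186 : Cov cls mv 186 187 := Cov.mk' 186 1 (by decide +kernel) rfl

theorem c187 : Cov cls mv 187 188 := Cov.mk' 187 1 (by decide +kernel) rfl

theorem c188 : Cov cls mv 188 189 := Cov.mk' 188 1 (by decide +kernel) rfl

theorem cov18 : Cov cls mv 174 189 := ((((((((((((((c174.trans c175).trans c176).trans c177).trans c178).trans c179).trans c180).trans c181).trans c182).trans c183).trans c184).trans c185).trans c186).trans c187).trans c188)

end Vale.Agent.P355.H182F
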