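import Vale.Agent.P355.H182F.Dat
import Vale.Agent.P355.H182F.Mv

/-! Products, columns 189 to 205. -/

namespace Vale.Agent.P355.H182F

open Finset Matrix Vale.Agent.P355 H147 H998.E

theorem c189 : Cov cls mv 189 190 := Cov.mk' 189 1 (by decide +kernel) rfl

theorem c190 : Cov cls mv 190 191 := Cov.mk' 190 1 (by decide +kernel) rfl

theorem c191 : Cov cls mv 191 192 := Cov.mk' 191 1 (by decide +kernel) rfl

theorem c192 : Cov cls mv 192 193 := Cov.mk' 192 1 (by decide +kernel) rfl

theorem c193 : Cov cls mv 193 194 := Cov.mk' 193 1 (by decide +kernel) rfl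

theorem c194 : Cov cls mv 194 195 := Cov.mk' 194 1 (by decide +kernel) rfl

theorem c195 : Cov cls mv 195 196 := Cov.mk' 195 1 (by decide +kernel) rfl

theorem c196 : Cov cls mv 196 197 := Cov.mk' 196 1 (by decide +kernel) rfl

theorem c197 : Cov cls mv 197 198 := Cov.mk' 197 1 (by decide +kernel) rfl

theorem c198 : Cov cls mv 198 199 := Cov.mk' 198 1 (by decide +kernel) rfl

theorem c199 : Cov cls mv 199 200 := Cov.mk' 199 1 (by decide +kernel) rfl

theorem c200 : Cov cls mv 200 201 := Cov.mk' 200 1 (by decide +kernel) rfl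

theorem c201 : Cov cls mv 201 202 := Cov.mk' 201 1 (by decide +kernel) rfl

theorem c202 : Cov cls mv 202 203 := Cov.mk' 202 1 (by decide +kernel) rfl

theorem c203 : Cov cls mv 203 204 := Cov.mk' 203 1 (by decide +kernel) rfl

theorem c204 : Cov cls mv 204 205 := Cov.mk' 204 1 (by decide +kernel) rfl

theorem c205 : Cov cls mv 205 206 := Cov.mk' 205 1 (by decide +kernel) rfl

theorem cov19 : Cov cls mv 189 206 := ((((((((((((((((c189.trans c190).trans c191).trans c192).trans c193).trans c194).trans c195).trans c196).trans c197).trans c198).trans c199).trans c200).trans c201).trans c202).trans c203).trans c204).trans c205)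

end Vale.Agent.P355.H182F
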