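import Vale.Agent.P355.H182F.Dat
import Vale.Agent.P355.H182F.Mv

/-! Products, columns 15 to 22. -/

namespace Vale.Agent.P355.H182F

open Finset Matrix Vale.Agent.P355 H147 H998.E

theorem c15 : Cov cls mv 15 16 := Cov.mk' 15 1 (by decide +kernel) rfl

theorem c16 : Cov cls mv 16 17 := Cov.mk' 16 1 (by decide +kernel) rfl

theorem c17 : Cov cls mv 17 18 := Cov.mk' 17 1 (by decide +kernel) rfl

theorem c18 : Cov cls mv 18 19 := Cov.mk' 18 1 (by decide +kernel) rfl

theorem c19 : Cov cls mv 19 20 := Cov.mk' 19 1 (by decide +kernel) rfl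

theorem c20 : Cov cls mv 20 21 := Cov.mk' 20 1 (by decide +kernel) rfl

theorem c21 : Cov cls mv 21 22 := Cov.mk' 21 1 (by decide +kernel) rfl

theorem c22 : Cov cls mv 22 23 := Cov.mk' 22 1 (by decide +kernel) rfl

theorem cov2 : Cov cls mv 15 23 := (((((((c15.trans c16).trans c17).trans c18).trans c19).trans c20).trans c21).trans c22)

end Vale.Agent.P355.H182F
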