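import Vale.Agent.P355.H182F.Dat
import Vale.Agent.P355.H182F.Mv

/-! Products, columns 206 to 224. -/

namespace Vale.Agent.P355.H182F

open Finset Matrix Vale.Agent.P355 H147 H998.E

theorem c206 : Cov cls mv 206 207 := Cov.mk' 206 1 (by decide +kernel) rfl

theorem c207 : Cov cls mv 207 208 := Cov.mk' 207 1 (by decide +kernel) rfl

theorem c208 : Cov cls mv 208 209 := Cov.mk' 208 1 (by decide +kernel) rfl

theorem c209 : Cov cls mv 209 210 := Cov.mk' 209 1 (by decide +kernel) rfl

theorem c210 : Cov cls mv 210 211 := Cov.mk' 210 1 (by decide +kernel) rfl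

theorem c211 : Cov cls mv 211 212 := Cov.mk' 211 1 (by decide +kernel) rfl

theorem c212 : Cov cls mv 212 213 := Cov.mk' 212 1 (by decide +kernel) rfl

theorem c213 : Cov cls mv 213 214 := Cov.mk' 213 1 (by decide +kernel) rfl

theorem c214 : Cov cls mv 214 215 := Cov.mk' 214 1 (by decide +kernel) rfl

theorem c215 : Cov cls mv 215 216 := Cov.mk' 215 1 (by decide +kernel) rfl

theorem c216 : Cov cls mv 216 217 := Cov.mk' 216 1 (by decide +kernel) rfl

theorem c217 : Cov cls mv 217 218 := Cov.mk' 217 1 (by decide +kernel) rfl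

theorem c218 : Cov cls mv 218 219 := Cov.mk' 218 1 (by decide +kernel) rfl

theorem c219 : Cov cls mv 219 220 := Cov.mk' 219 1 (by decide +kernel) rfl

theorem c220 : Cov cls mv 220 221 := Cov.mk' 220 1 (by decide +kernel) rfl

theorem c221 : Cov cls mv 221 222 := Cov.mk' 221 1 (by decide +kernel) rfl

theorem c222 : Cov cls mv 222 223 := Cov.mk' 222 1 (by decide +kernel) rfl

theorem c223 : Cov cls mv 223 224 := Cov.mk' 223 1 (by decide +kernel) rfl

theorem c224 : Cov cls mv 224 225 := Cov.mk' 224 1 (by decide +kernel) rfl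

theorem cov20 : Cov cls mv 206 225 := ((((((((((((((((((c206.trans c207).trans c208).trans c209).trans c210).trans c211).trans c212).trans c213).trans c214).trans c215).trans c216).trans c217).trans c218).trans c219).trans c220).trans c221).trans c222).trans c223).trans c224)

end Vale.Agent.P355.H182F
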