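import Vale.Agent.P355.H182F.Dat
import Vale.Agent.P355.H182F.Mv

/-! Products, columns 225 to 248. -/

namespace Vale.Agent.P355.H182F

open Finset Matrix Vale.Agent.P355 H147 H998.E

theorem c225 : Cov cls mv 225 226 := Cov.mk' 225 1 (by decide +kernel) rfl

theorem c226 : Cov cls mv 226 227 := Cov.mk' 226 1 (by decide +kernel) rfl

theorem c227 : Cov cls mv 227 228 := Cov.mk' 227 1 (by decide +kernel) rfl

theorem c228 : Cov cls mv 228 229 := Cov.mk' 228 1 (by decide +kernel) rfl

theorem c229 : Cov cls mv 229 230 := Cov.mk' 229 1 (by decide +kernel) rfl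

theorem c230 : Cov cls mv 230 231 := Cov.mk' 230 1 (by decide +kernel) rfl

theorem c231 : Cov cls mv 231 232 := Cov.mk' 231 1 (by decide +kernel) rfl

theorem c232 : Cov cls mv 232 233 := Cov.mk' 232 1 (by decide +kernel) rfl

theorem c233 : Cov cls mv 233 234 := Cov.mk' 233 1 (by decide +kernel) rfl

theorem c234 : Cov cls mv 234 235 := Cov.mk' 234 1 (by decide +kernel) rfl

theorem c235 : Cov cls mv 235 236 := Cov.mk' 235 1 (by decide +kernel) rfl

theorem c236 : Cov cls mv 236 237 := Cov.mk' 236 1 (by decide +kernel) rfl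

theorem c237 : Cov cls mv 237 238 := Cov.mk' 237 1 (by decide +kernel) rfl

theorem c238 : Cov cls mv 238 239 := Cov.mk' 238 1 (by decide +kernel) rfl

theorem c239 : Cov cls mv 239 240 := Cov.mk' 239 1 (by decide +kernel) rfl

theorem c240 : Cov cls mv 240 241 := Cov.mk' 240 1 (by decide +kernel) rfl

theorem c241 : Cov cls mv 241 242 := Cov.mk' 241 1 (by decide +kernel) rfl

theorem c242 : Cov cls mv 242 243 := Cov.mk' 242 1 (by decide +kernel) rfl

theorem c243 : Cov cls mv 243 244 := Cov.mk' 243 1 (by decide +kernel) rfl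

theorem c244 : Cov cls mv 244 245 := Cov.mk' 244 1 (by decide +kernel) rfl

theorem c245 : Cov cls mv 245 246 := Cov.mk' 245 1 (by decide +kernel) rfl

theorem c246 : Cov cls mv 246 247 := Cov.mk' 246 1 (by decide +kernel) rfl

theorem c247 : Cov cls mv 247 249 := Cov.mk' 247 2 (by decide +kernel) rfl

theorem cov21 : Cov cls mv 225 249 := ((((((((((((((((((((((c225.trans c226).trans c227).trans c228).trans c229).trans c230).trans c231).trans c232).trans c233).trans c234).trans c235).trans c236).trans c237).trans c238).trans c239).trans c240).trans c241).trans c242).trans c243).trans c244).trans c245).trans c246).trans c247)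

end Vale.Agent.P355.H182F
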