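import Vale.Agent.P355.H182F.Dat
import Vale.Agent.P355.H182F.Mv

/-! Products, columns 249 to 276. -/

namespace Vale.Agent.P355.H182F

open Finset Matrix Vale.Agent.P355 H147 H998.E

theorem c249 : Cov cls mv 249 251 := Cov.mk' 249 2 (by decide +kernel) rfl

theorem c251 : Cov cls mv 251 253 := Cov.mk' 251 2 (by decide +kernel) rfl

theorem c253 : Cov cls mv 253 255 := Cov.mk' 253 2 (by decide +kernel) rfl

theorem c255 : Cov cls mv 255 257 := Cov.mk' 255 2 (by decide +kernel) rfl

theorem c257 : Cov cls mv 257 259 := Cov.mk' 257 2 (by decide +kernel) rfl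

theorem c259 : Cov cls mv 259 261 := Cov.mk' 259 2 (by decide +kernel) rfl

theorem c261 : Cov cls mv 261 263 := Cov.mk' 261 2 (by decide +kernel) rfl

theorem c263 : Cov cls mv 263 265 := Cov.mk' 263 2 (by decide +kernel) rfl

theorem c265 : Cov cls mv 265 267 := Cov.mk' 265 2 (by decide +kernel) rfl

theorem c267 : Cov cls mv 267 269 := Cov.mk' 267 2 (by decide +kernel) rfl

theorem c269 : Cov cls mv 269 271 := Cov.mk' 269 2 (by decide +kernel) rfl

theorem c271 : Cov cls mv 271 273 := Cov.mk' 271 2 (by decide +kernel) rfl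

theorem c273 : Cov cls mv 273 275 := Cov.mk' 273 2 (by decide +kernel) rfl

theorem c275 : Cov cls mv 275 277 := Cov.mk' 275 2 (by decide +kernel) rfl

theorem cov22 : Cov cls mv 249 277 := (((((((((((((c249.trans c251).trans c253).trans c255).trans c257).trans c259).trans c261).trans c263).trans c265).trans c267).trans c269).trans c271).trans c273).trans c275)

end Vale.Agent.P355.H182F
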