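import Vale.Agent.P355.H182F.Dat
import Vale.Agent.P355.H182F.Mv

/-! Products, columns 277 to 346. -/

namespace Vale.Agent.P355.H182F

open Finset Matrix Vale.Agent.P355 H147 H998.E

theorem c277 : Cov cls mv 277 279 := Cov.mk' 277 2 (by decide +kernel) rfl

theorem c279 : Cov cls mv 279 281 := Cov.mk' 279 2 (by decide +kernel) rfl

theorem c281 : Cov cls mv 281 284 := Cov.mk' 281 3 (by decide +kernel) rfl

theorem c284 : Cov cls mv 284 287 := Cov.mk' 284 3 (by decide +kernel) rfl

theorem c287 : Cov cls mv 287 290 := Cov.mk' 287 3 (by decide +kernel) rfl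

theorem c290 : Cov cls mv 290 293 := Cov.mk' 290 3 (by decide +kernel) rfl

theorem c293 : Cov cls mv 293 296 := Cov.mk' 293 3 (by decide +kernel) rfl

theorem c296 : Cov cls mv 296 300 := Cov.mk' 296 4 (by decide +kernel) rfl

theorem c300 : Cov cls mv 300 304 := Cov.mk' 300 4 (by decide +kernel) rfl

theorem c304 : Cov cls mv 304 308 := Cov.mk' 304 4 (by decide +kernel) rfl

theorem c308 : Cov cls mv 308 313 := Cov.mk' 308 5 (by decide +kernel) rfl

theorem c313 : Cov cls mv 313 319 := Cov.mk' 313 6 (by decide +kernel) rfl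

theorem c319 : Cov cls mv 319 327 := Cov.mk' 319 8 (by decide +kernel) rfl

theorem c327 : Cov cls mv 327 343 := Cov.mk' 327 16 (by decide +kernel) rfl

theorem c343 : Cov cls mv 343 347 := Cov.mk' 343 4 (by decide +kernel) rfl

theorem cov23 : Cov cls mv 277 347 := ((((((((((((((c277.trans c279).trans c281).trans c284).trans c287).trans c290).trans c293).trans c296).trans c300).trans c304).trans c308).trans c313).trans c319).trans c327).trans c343)

end Vale.Agent.P355.H182F
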