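import Vale.Agent.P355.H182F.Dat
import Vale.Agent.P355.H182F.Mv

/-! Products, columns 23 to 30. -/

namespace Vale.Agent.P355.H182F

open Finset Matrix Vale.Agent.P355 H147 H998.E

theorem c23 : Cov cls mv 23 24 := Cov.mk' 23 1 (by decide +kernel) rfl

theorem c24 : Cov cls mv 24 25 := Cov.mk' 24 1 (by decide +kernel) rfl

theorem c25 : Cov cls mv 25 26 := Cov.mk' 25 1 (by decide +kernel) rfl

theorem c26 : Cov cls mv 26 27 := Cov.mk' 26 1 (by decide +kernel) rfl

theorem c27 : Cov cls mv 27 28 := Cov.mk' 27 1 (by decide +kernel) rfl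

theorem c28 : Cov cls mv 28 29 := Cov.mk' 28 1 (by decide +kernel) rfl

theorem c29 : Cov cls mv 29 30 := Cov.mk' 29 1 (by decide +kernel) rfl

theorem c30 : Cov cls mv 30 31 := Cov.mk' 30 1 (by decide +kernel) rfl

theorem cov3 : Cov cls mv 23 31 := (((((((c23.trans c24).trans c25).trans c26).trans c27).trans c28).trans c29).trans c30)

end Vale.Agent.P355.H182F
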