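import Vale.Agent.P355.H182F.Dat
import Vale.Agent.P355.H182F.Mv

/-! Products, columns 31 to 38. -/

namespace Vale.Agent.P355.H182F

open Finset Matrix Vale.Agent.P355 H147 H998.E

theorem c31 : Cov cls mv 31 32 := Cov.mk' 31 1 (by decide +kernel) rfl

theorem c32 : Cov cls mv 32 33 := Cov.mk' 32 1 (by decide +kernel) rfl

theorem c33 : Cov cls mv 33 34 := Cov.mk' 33 1 (by decide +kernel) rfl

theorem c34 : Cov cls mv 34 35 := Cov.mk' 34 1 (by decide +kernel) rfl

theorem c35 : Cov cls mv 35 36 := Cov.mk' 35 1 (by decide +kernel) rfl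

theorem c36 : Cov cls mv 36 37 := Cov.mk' 36 1 (by decide +kernel) rfl

theorem c37 : Cov cls mv 37 38 := Cov.mk' 37 1 (by decide +kernel) rfl

theorem c38 : Cov cls mv 38 39 := Cov.mk' 38 1 (by decide +kernel) rfl

theorem cov4 : Cov cls mv 31 39 := (((((((c31.trans c32).trans c33).trans c34).trans c35).trans c36).trans c37).trans c38)

end Vale.Agent.P355.H182F
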