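import Vale.Agent.P355.H182F.Dat
import Vale.Agent.P355.H182F.Mv

/-! Products, columns 39 to 46. -/

namespace Vale.Agent.P355.H182F

open Finset Matrix Vale.Agent.P355 H147 H998.E

theorem c39 : Cov cls mv 39 40 := Cov.mk' 39 1 (by decide +kernel) rfl

theorem c40 : Cov cls mv 40 41 := Cov.mk' 40 1 (by decide +kernel) rfl

theorem c41 : Cov cls mv 41 42 := Cov.mk' 41 1 (by decide +kernel) rfl

theorem c42 : Cov cls mv 42 43 := Cov.mk' 42 1 (by decide +kernel) rfl

theorem c43 : Cov cls mv 43 44 := Cov.mk' 43 1 (by decide +kernel) rfl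

theorem c44 : Cov cls mv 44 45 := Cov.mk' 44 1 (by decide +kernel) rfl

theorem c45 : Cov cls mv 45 46 := Cov.mk' 45 1 (by decide +kernel) rfl

theorem c46 : Cov cls mv 46 47 := Cov.mk' 46 1 (by decide +kernel) rfl

theorem cov5 : Cov cls mv 39 47 := (((((((c39.trans c40).trans c41).trans c42).trans c43).trans c44).trans c45).trans c46)

end Vale.Agent.P355.H182F
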