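import Vale.Agent.P355.H182F.Dat
import Vale.Agent.P355.H182F.Mv

/-! Products, columns 47 to 55. -/

namespace Vale.Agent.P355.H182F

open Finset Matrix Vale.Agent.P355 H147 H998.E

theorem c47 : Cov cls mv 47 48 := Cov.mk' 47 1 (by decide +kernel) rfl

theorem c48 : Cov cls mv 48 49 := Cov.mk' 48 1 (by decide +kernel) rfl

theorem c49 : Cov cls mv 49 50 := Cov.mk' 49 1 (by decide +kernel) rfl

theorem c50 : Cov cls mv 50 51 := Cov.mk' 50 1 (by decide +kernel) rfl

theorem c51 : Cov cls mv 51 52 := Cov.mk' 51 1 (by decide +kernel) rfl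

theorem c52 : Cov cls mv 52 53 := Cov.mk' 52 1 (by decide +kernel) rfl

theorem c53 : Cov cls mv 53 54 := Cov.mk' 53 1 (by decide +kernel) rfl

theorem c54 : Cov cls mv 54 55 := Cov.mk' 54 1 (by decide +kernel) rfl

theorem c55 : Cov cls mv 55 56 := Cov.mk' 55 1 (by decide +kernel) rfl

theorem cov6 : Cov cls mv 47 56 := ((((((((c47.trans c48).trans c49).trans c50).trans c51).trans c52).trans c53).trans c54).trans c55)

end Vale.Agent.P355.H182F
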