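import Vale.Agent.P355.H182F.Dat
import Vale.Agent.P355.H182F.Mv

/-! Products, columns 56 to 63. -/

namespace Vale.Agent.P355.H182F

open Finset Matrix Vale.Agent.P355 H147 H998.E

theorem c56 : Cov cls mv 56 57 := Cov.mk' 56 1 (by decide +kernel) rfl

theorem c57 : Cov cls mv 57 58 := Cov.mk' 57 1 (by decide +kernel) rfl

theorem c58 : Cov cls mv 58 59 := Cov.mk' 58 1 (by decide +kernel) rfl

theorem c59 : Cov cls mv 59 60 := Cov.mk' 59 1 (by decide +kernel) rfl

theorem c60 : Cov cls mv 60 61 := Cov.mk' 60 1 (by decide +kernel) rfl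

theorem c61 : Cov cls mv 61 62 := Cov.mk' 61 1 (by decide +kernel) rfl

theorem c62 : Cov cls mv 62 63 := Cov.mk' 62 1 (by decide +kernel) rfl

theorem c63 : Cov cls mv 63 64 := Cov.mk' 63 1 (by decide +kernel) rfl

theorem cov7 : Cov cls mv 56 64 := (((((((c56.trans c57).trans c58).trans c59).trans c60).trans c61).trans c62).trans c63)

end Vale.Agent.P355.H182F
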