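import Vale.Agent.P355.H182F.Dat
import Vale.Agent.P355.H182F.Mv

/-! Products, columns 64 to 72. -/

namespace Vale.Agent.P355.H182F

open Finset Matrix Vale.Agent.P355 H147 H998.E

theorem c64 : Cov cls mv 64 65 := Cov.mk' 64 1 (by decide +kernel) rfl

theorem c65 : Cov cls mv 65 66 := Cov.mk' 65 1 (by decide +kernel) rfl

theorem c66 : Cov cls mv 66 67 := Cov.mk' 66 1 (by decide +kernel) rfl

theorem c67 : Cov cls mv 67 68 := Cov.mk' 67 1 (by decide +kernel) rfl

theorem c68 : Cov cls mv 68 69 := Cov.mk' 68 1 (by decide +kernel) rfl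

theorem c69 : Cov cls mv 69 70 := Cov.mk' 69 1 (by decide +kernel) rfl

theorem c70 : Cov cls mv 70 71 := Cov.mk' 70 1 (by decide +kernel) rfl

theorem c71 : Cov cls mv 71 72 := Cov.mk' 71 1 (by decide +kernel) rfl

theorem c72 : Cov cls mv 72 73 := Cov.mk' 72 1 (by decide +kernel) rfl

theorem cov8 : Cov cls mv 64 73 := ((((((((c64.trans c65).trans c66).trans c67).trans c68).trans c69).trans c70).trans c71).trans c72)

end Vale.Agent.P355.H182F
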