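import Vale.Agent.P355.H182F.Dat
import Vale.Agent.P355.H182F.Mv

/-! Products, columns 73 to 82. -/

namespace Vale.Agent.P355.H182F

open Finset Matrix Vale.Agent.P355 H147 H998.E

theorem c73 : Cov cls mv 73 74 := Cov.mk' 73 1 (by decide +kernel) rfl

theorem c74 : Cov cls mv 74 75 := Cov.mk' 74 1 (by decide +kernel) rfl

theorem c75 : Cov cls mv 75 76 := Cov.mk' 75 1 (by decide +kernel) rfl

theorem c76 : Cov cls mv 76 77 := Cov.mk' 76 1 (by decide +kernel) rfl

theorem c77 : Cov cls mv 77 78 := Cov.mk' 77 1 (by decide +kernel) rfl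

theorem c78 : Cov cls mv 78 79 := Cov.mk' 78 1 (by decide +kernel) rfl

theorem c79 : Cov cls mv 79 80 := Cov.mk' 79 1 (by decide +kernel) rfl

theorem c80 : Cov cls mv 80 81 := Cov.mk' 80 1 (by decide +kernel) rfl

theorem c81 : Cov cls mv 81 82 := Cov.mk' 81 1 (by decide +kernel) rfl

theorem c82 : Cov cls mv 82 83 := Cov.mk' 82 1 (by decide +kernel) rfl

theorem cov9 : Cov cls mv 73 83 := (((((((((c73.trans c74).trans c75).trans c76).trans c77).trans c78).trans c79).trans c80).trans c81).trans c82)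

end Vale.Agent.P355.H182F
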