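import Vale.Agent.P355.H182F.Cl
import Vale.Agent.P355.H182F.El
import Vale.Agent.P355.H182F.U0
import Vale.Agent.P355.H182F.U1
import Vale.Agent.P355.H147.T2W

/-! The data of the type. -/

namespace Vale.Agent.P355.H182F

open Finset Matrix Vale.Agent.P355 H147 H998.E

/-- the data. -/
def D : ED := ⟨4, 36, T, G, XL, EL, 0x302c51352534c0a242a39031b124420a6180d1652a5b5aa36a0a49115550a2452d4392acd6266538d2332aa⟩

theorem ck : D.ck 4 2 1 = true := by decide +kernel

/-- block 0. -/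
def b0 : BD := ⟨1, Us0, [0x1010101], [0x0], [[0x1000000000020000000000400000000008]], [[0x0]], [[0x800000000010000000000200000000004]], [[0x0]]⟩

theorem b0_ck : b0.ck G.n G.nu 43 4 = true := by decide +kernel

/-- block 1. -/
def b1 : BD := ⟨1, Us1, [0x101], [0x1010000], [[0x400000000008]], [[0x1000000000020000000000000000000000]], [[0x200000000004]], [[0x800000000010000000000000000000000]]⟩

theorem b1_ck : b1.ck G.n G.nu 43 4 = true := by decide +kernel

/-- the blocks. -/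
def bs : List BD := [b0, b1]

theorem bs_ok : BOk G.n G.nu 347 43 4 34359738368 90 36 bs :=
 (((BOk.nil G.n G.nu 347 43 4 34359738368 90 36).cons b1_ck psd1).cons b0_ck psd0)

/-- parameters of the evaluation. -/
def t : TyE := ⟨RcE 4 36, G.n, 90, 43, 4, 36, 34359738368, 76, 0x302c51352534c0a242a39031b124420a6180d1652a5b5aa36a0a49115550a2452d4392acd6266538d2332aa, 1296, bs, EL⟩

theorem t_ok : t.Ok G.nu 347 :=
  ⟨bs_ok, by decide +kernel, fun e => RcE_le 4 36 e⟩

/-- the columns `a ≤ l < b` are checked. -/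
def Cov (cls mv : ℕ → ℕ) (a b : ℕ) : Prop := ∀ l', a ≤ l' → l' < b → ∃ l0 cnt, l0 ≤ l' ∧ l' < l0 + cnt ∧
  colsAt 4 D.TT cls mv D.rw D.G.n 2 (2 + 1) D.G.gl D.XL D.EL l0 cnt = true

theorem Cov.mk' {cls mv : ℕ → ℕ} (a cnt : ℕ) {b : ℕ} (h : colsAt 4 D.TT cls mv D.rw D.G.n 2 (2 + 1) D.G.gl D.XL
    D.EL a cnt = true) (hb : b = a + cnt) : Cov cls mv a b := fun _ h1 h2 => ⟨a, cnt, h1, hb ▸ h2, h⟩

theorem Cov.trans {cls mv : ℕ → ℕ} {a b e : ℕ} (h : Cov cls mv a b) (h' : Cov cls mv b e) :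
    Cov cls mv a e := fun l' h1 h2 => by
  rcases lt_or_ge l' b with h3 | h3
  · exact h l' h1 h3
  · exact h' l' h3 h2

end Vale.Agent.P355.H182F
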