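import Vale.Agent.P355.H182F.Dat
import Vale.Agent.P355.H182F.Xs

/-! Rows 0 to 99. -/

namespace Vale.Agent.P355.H182F

open Finset Matrix Vale.Agent.P355 H147 H998.E

theorem p0 : Ch t true 0 100 0 X1 :=
  Ch.ck t_ok true 100 0 100 0 X1 (by decide +kernel)

theorem q0 : Ch t false 0 100 0 Y1 :=
  Ch.ck t_ok false 100 0 100 0 Y1 (by decide +kernel)

end Vale.Agent.P355.H182F
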