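import Vale.Agent.P355.H182F.Dat
import Vale.Agent.P355.H182F.Xs

/-! Rows 100 to 141. -/

namespace Vale.Agent.P355.H182F

open Finset Matrix Vale.Agent.P355 H147 H998.E

theorem p1 : Ch t true 100 142 X1 X2 :=
  Ch.ck t_ok true 42 100 142 X1 X2 (by decide +kernel)

theorem q1 : Ch t false 100 142 Y1 Y2 :=
  Ch.ck t_ok false 42 100 142 Y1 Y2 (by decide +kernel)

end Vale.Agent.P355.H182F
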