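import Vale.Agent.P355.H182F.Dat
import Vale.Agent.P355.H182F.Xs

/-! Rows 317 to 332. -/

namespace Vale.Agent.P355.H182F

open Finset Matrix Vale.Agent.P355 H147 H998.E

theorem p10 : Ch t true 317 333 X10 X11 :=
  Ch.ck t_ok true 16 317 333 X10 X11 (by decide +kernel)

theorem q10 : Ch t false 317 333 Y10 Y11 :=
  Ch.ck t_ok false 16 317 333 Y10 Y11 (by decide +kernel)

end Vale.Agent.P355.H182F
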