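import Vale.Agent.P355.H182F.Dat
import Vale.Agent.P355.H182F.Xs

/-! Rows 246 to 264. -/

namespace Vale.Agent.P355.H182F

open Finset Matrix Vale.Agent.P355 H147 H998.E

theorem p6 : Ch t true 246 265 X6 X7 :=
  Ch.ck t_ok true 19 246 265 X6 X7 (by decide +kernel)

theorem q6 : Ch t false 246 265 Y6 Y7 :=
  Ch.ck t_ok false 19 246 265 Y6 Y7 (by decide +kernel)

end Vale.Agent.P355.H182F
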