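import Vale.Agent.P355.H182F.MvOk
import Vale.Agent.P355.H182F.C0
import Vale.Agent.P355.H182F.C1
import Vale.Agent.P355.H182F.C2
import Vale.Agent.P355.H182F.C3
import Vale.Agent.P355.H182F.C4
import Vale.Agent.P355.H182F.C5
import Vale.Agent.P355.H182F.C6
import Vale.Agent.P355.H182F.C7
import Vale.Agent.P355.H182F.C8
import Vale.Agent.P355.H182F.C9
import Vale.Agent.P355.H182F.C10
import Vale.Agent.P355.H182F.C11
import Vale.Agent.P355.H182F.C12
import Vale.Agent.P355.H182F.C13
import Vale.Agent.P355.H182F.C14
import Vale.Agent.P355.H182F.C15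
import Vale.Agent.P355.H182F.C16
import Vale.Agent.P355.H182F.C17
import Vale.Agent.P355.H182F.C18
import Vale.Agent.P355.H182F.C19
import Vale.Agent.P355.H182F.C20
import Vale.Agent.P355.H182F.C21
import Vale.Agent.P355.H182F.C22
import Vale.Agent.P355.H182F.C23
import Vale.Agent.P355.H182F.P0
import Vale.Agent.P355.H182F.P1
import Vale.Agent.P355.H182F.P2
import Vale.Agent.P355.H182F.P3
import Vale.Agent.P355.H182F.P4
import Vale.Agent.P355.H182F.P5
import Vale.Agent.P355.H182F.P6
import Vale.Agent.P355.H182F.P7
import Vale.Agent.P355.H182F.P8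
import Vale.Agent.P355.H182F.P9
import Vale.Agent.P355.H182F.P10
import Vale.Agent.P355.H182F.P11

/-! Lower bound of the squares of the triple products of four bases. -/

namespace Vale.Agent.P355.H182F

open Finset Matrix Vale.Agent.P355 H147 H998.E

theorem cov : Cov cls mv 0 347 := (((((((((((((((((((((((cov0.trans cov1).trans cov2).trans cov3).trans cov4).trans cov5).trans cov6).trans cov7).trans cov8).trans cov9).trans cov10).trans cov11).trans cov12).trans cov13).trans cov14).trans cov15).trans cov16).trans cov17).trans cov18).trans cov19).trans cov20).trans cov21).trans cov22).trans cov23)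

theorem pos : Ch t true 0 347 0 X12 :=
  (((((((((((p0.trans p1 (by norm_num) (by norm_num)).trans p2 (by norm_num) (by norm_num)).trans p3 (by norm_num) (by norm_num)).trans p4 (by norm_num) (by norm_num)).trans p5 (by norm_num) (by norm_num)).trans p6 (by norm_num) (by norm_num)).trans p7 (by norm_num) (by norm_num)).trans p8 (by norm_num) (by norm_num)).trans p9 (by norm_num) (by norm_num)).trans p10 (by norm_num) (by norm_num)).trans p11 (by norm_num) (by norm_num))

theorem neg : Ch t false 0 347 0 Y12 :=
  (((((((((((q0.trans q1 (by norm_num) (by norm_num)).trans q2 (by norm_num) (by norm_num)).trans q3 (by norm_num) (by norm_num)).trans q4 (by norm_num) (by norm_num)).trans q5 (by norm_num) (by norm_num)).trans q6 (by norm_num) (by norm_num)).trans q7 (by norm_num) (by norm_num)).trans q8 (by norm_num) (by norm_num)).trans q9 (by norm_num) (by norm_num)).trans q10 (by norm_num) (by norm_num)).trans q11 (by norm_num) (by norm_num))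

theorem e0 : empCk (cls 0) = true := by decide +kernel

theorem e1 : triCk (cls 1) = true := by decide +kernel

theorem fin : endCk t.Ws 347 t.m X12 Y12 10 27 34919877748 0 1391569278980 1 127043384 = true := by decide +kernel

theorem sok {m : ℕ} {B : Fin m → M6} (hB : IsMUBs B) :
    SOk D.G.n 347 (D.G.act 4 2 1) D.G.nu ((D.T.ty 4).M B)
      (fun i => (D.XL.getD i pf0).dec 4 2 1) ((6 : ℝ) ^ D.TT) (RcE D.TT D.rw)
      (fun i => cvB B 4 (cls i)) D.BP D.EL :=
  ED.sok hB (by norm_num) hmv ck (by decide +kernel) fun l' h => cov l' (Nat.zero_le _) h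

theorem t2_four {B : Fin 4 → M6} (hB : IsMUBs B) :
    0 ≤ ((34919877748 : ℕ) : ℝ) + ((1391569278980 : ℕ) : ℝ) * ((Fintype.card (Fin 3 ↪ Fin 4) : ℝ)⁻¹ * (H693.T2 B).re)
      + ((127043384 : ℕ) : ℝ) * (5 / 2) :=
  t2_lower hB (by norm_num) (by norm_num) (sok hB) t_ok pos neg e0 e1 fin

/-- **Four mutually unbiased bases of `ℂ⁶`: the normalised sum of the squares of the triple products
is at least `-254/10000`.** -/
theorem t2_ge {B : Fin 4 → M6} (hB : IsMUBs B) :
    -(254 / 10000 : ℝ) ≤ (24 : ℝ)⁻¹ * (H693.T2 B).re := by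
  have h := t2_four hB
  have hc : (Fintype.card (Fin 3 ↪ Fin 4) : ℝ) = 24 := by
    rw [Fintype.card_embedding_eq]
    simp [Nat.descFactorial]
  rw [hc] at h
  push_cast at h
  linarith

end Vale.Agent.P355.H182F
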