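import Vale.Agent.P355.H182F.Mv

/-! Check of the moves. -/

namespace Vale.Agent.P355.H182F

open Finset Matrix Vale.Agent.P355 H147 H998.E

theorem mvok : TT.all 117 166153499473114484112975882535043071 (mvOK 4) mvT = true := by decide +kernel

theorem hmv (i : ℕ) : mvOK 4 (mv i) = true := TT.at_spec mvok i

end Vale.Agent.P355.H182F
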